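import Vale.Agent.Lib.P249.Defs
import Vale.Agent.Lib.P249.LowerFinal
import Vale.Agent.Lib.P249C.Main

namespace Vale.Agent.Results.P249.SubPoly

open Vale.Agent.P249 Filter Topology Asymptotics

universe u

/-- Dimension reduction in `L_p`, for every `p > 1` and EVERY distortion `D > 1`. `dimP p D n` is
the least dimension `d` such that every `n`-point subset of every `L_p(μ)` admits a map into
`ℓ_p^d` of distortion at most `D` (attained: first conjunct). Then
* `d_p(n, D) ≤ exp (C (log n) ^ max (1/p) (1/2))` for all `n ≥ 2`;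
* hence `d_p(n, D) = o(n ^ δ)` for every `δ > 0`, and
* `d_p(n, D) = o(n)`, for all `1 < p < ∞` and `D > 1`;
* `d_p(n, D) ≥ c (log n / log log n) ^ (p / 2)` for `p > 2` and all large `n`. -/
theorem result (p : ℝ) (hp : 1 < p) (D : ℝ) (hD : 1 < D) :
    (∃ C : ℝ, 0 < C ∧ ∀ n : ℕ, 2 ≤ n → Admits.{u} p D n (dimP.{u} p D n) ∧
      (dimP.{u} p D n : ℝ) ≤ Real.exp (C * Real.log n ^ (max (1 / p) (1 / 2)))) ∧
    (∀ δ : ℝ, 0 < δ →
      (fun n : ℕ => (dimP.{u} p D n : ℝ)) =o[atTop] fun n : ℕ => (n : ℝ) ^ δ) ∧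
    ((fun n : ℕ => (dimP.{u} p D n : ℝ)) =o[atTop] fun n : ℕ => (n : ℝ)) ∧
    (2 < p → ∃ c : ℝ, 0 < c ∧ ∀ᶠ n : ℕ in atTop,
      c * (Real.log n / Real.log (Real.log n)) ^ (p / 2) ≤ (dimP.{u} p D n : ℝ)) := by
  obtain ⟨C, hC, h⟩ := Vale.Agent.P249C.sub_bound.{u} hp.le hD
  have hr0 : 0 < max (1 / p) (1 / 2) := lt_of_lt_of_le (by norm_num) (le_max_right _ _)
  have hr1 : max (1 / p) (1 / 2) < 1 :=
    max_lt ((div_lt_one (by linarith)).2 hp) (by norm_num)
  set r : ℝ := max (1 / p) (1 / 2) with hr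
  have hlittle : ∀ δ : ℝ, 0 < δ →
      (fun n : ℕ => (dimP.{u} p D n : ℝ)) =o[atTop] fun n : ℕ => (n : ℝ) ^ δ := by
    intro δ hδ
    have hlog : Tendsto (fun n : ℕ => Real.log n) atTop atTop :=
      Real.tendsto_log_atTop.comp tendsto_natCast_atTop_atTop
    have h1 : Tendsto (fun x : ℝ => x * (δ - C * x ^ (r - 1))) atTop atTop := by
      apply Tendsto.atTop_mul_pos hδ tendsto_id
      have h2 : Tendsto (fun x : ℝ => x ^ (r - 1)) atTop (𝓝 0) := by
        have := tendsto_rpow_neg_atTop (y := 1 - r) (by linarith)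
        simpa using this
      simpa using (h2.const_mul C).const_sub δ
    have h2 : Tendsto (fun n : ℕ => Real.exp (-(Real.log n * (δ - C * Real.log n ^ (r - 1)))))
        atTop (𝓝 0) :=
      Real.tendsto_exp_neg_atTop_nhds_zero.comp (h1.comp hlog)
    have h3 : (fun n : ℕ => Real.exp (C * Real.log n ^ r)) =o[atTop] fun n : ℕ => (n : ℝ) ^ δ := by
      rw [isLittleO_iff_tendsto' ?_]
      · refine h2.congr' ?_
        filter_upwards [eventually_ge_atTop 2] with n hn
        have hn0 : (0:ℝ) < n := by exact_mod_cast (by omega : 0 < n)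
        have hl0 : 0 < Real.log n := Real.log_pos (by exact_mod_cast (by omega : 1 < n))
        rw [Real.rpow_def_of_pos hn0, ← Real.exp_sub]
        congr 1
        have h4 : Real.log n ^ r = Real.log n * Real.log n ^ (r - 1) := by
          rw [mul_comm, ← Real.rpow_add_one hl0.ne']
          congr 1; ring
        rw [h4]; ring
      · filter_upwards [eventually_ge_atTop 1] with n hn h0
        have hn0 : (0:ℝ) < n := by exact_mod_cast hn
        exact absurd h0 (Real.rpow_pos_of_pos hn0 δ).ne'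
    refine IsBigO.trans_isLittleO ?_ h3
    apply IsBigO.of_bound 1
    filter_upwards [eventually_ge_atTop 2] with n hn
    rw [one_mul, Real.norm_of_nonneg (by positivity), Real.norm_of_nonneg (Real.exp_pos _).le]
    exact (h n hn).2
  refine ⟨⟨C, hC, h⟩, hlittle, ?_, ?_⟩
  · have := hlittle 1 one_pos
    simpa using this
  · intro hp2
    obtain ⟨c, hc, n₀, h'⟩ := lower_bound.{u} (p := p) (D := D) hp2.le hD.le
    refine ⟨c, hc, ?_⟩
    filter_upwards [eventually_ge_atTop (max n₀ 2)] with n hn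
    exact h' n (le_trans (le_max_left _ _) hn) _ (h n (le_trans (le_max_right _ _) hn)).1

end Vale.Agent.Results.P249.SubPoly
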