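import Mathlib
import Vale.Agent.Lib.P249D.Bridge
import Vale.Agent.Results.P249.SubPoly

/-!
# P249: dimension reduction in `L_p`, metric formulation
-/

namespace Vale.Agent.Results.P249.BiLipschitz

open MeasureTheory Filter Asymptotics
open scoped ENNReal NNReal

universe u

/-- Let `1 < p < ∞` and `D > 1`.  For `n ≥ 2` let `dp n` be the least `d` such that every `n`-point
subset of every `L_p(μ)` admits a map into `ℓ_p^d` of distortion at most `D`.  Then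
`dp n ≤ exp (C (log n) ^ max (1/p) (1/2))`; so `dp n = o(n ^ δ)` for every `δ > 0`; for every
`c > 0` and all large `n`, no `n`-point subset needs dimension `c n`; and for `p > 2`,
`dp n ≥ c (log n / log log n) ^ (p / 2)` for all large `n`. -/
theorem result (p : ℝ≥0∞) [Fact (1 ≤ p)] (hp : 1 < p) (hp' : p < ∞) (D : ℝ≥0) (hD : 1 < D) :
    ∃ dp : ℕ → ℕ, (∀ n : ℕ, 2 ≤ n → IsLeast (P249D.GoodDims.{u} p D n) (dp n)) ∧
      (∃ C : ℝ, ∀ n : ℕ, 2 ≤ n →
        (dp n : ℝ) ≤ Real.exp (C * Real.log n ^ max (1 / p.toReal) (1 / 2))) ∧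
      (∀ δ : ℝ, 0 < δ → (fun n : ℕ => (dp n : ℝ)) =o[atTop] fun n : ℕ => (n : ℝ) ^ δ) ∧
      (∀ c : ℝ, 0 < c → ∀ᶠ n : ℕ in atTop, ∀ (Ω : Type u) [MeasurableSpace Ω] (μ : Measure Ω)
        (X : Finset (Lp ℝ p μ)), X.card = n → ∃ d : ℕ, (d : ℝ) < c * n ∧ P249D.HasMap p D X d) ∧
      (2 < p → ∃ c : ℝ, 0 < c ∧ ∀ᶠ n : ℕ in atTop,
        c * (Real.log n / Real.log (Real.log n)) ^ (p.toReal / 2) ≤ dp n) := by
  obtain ⟨r, hr⟩ : ∃ r : ℝ, p = ENNReal.ofReal r := ⟨p.toReal, (ENNReal.ofReal_toReal hp'.ne).symm⟩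
  subst hr
  have hr1 : 1 < r := by
    by_contra h
    have h1 : ENNReal.ofReal r ≤ 1 := by
      rw [← ENNReal.ofReal_one]
      exact ENNReal.ofReal_le_ofReal (not_lt.1 h)
    exact absurd hp (not_lt.2 h1)
  have hr0 : 0 ≤ r := by linarith
  obtain ⟨⟨C, hC, h1⟩, h2, h3, h4⟩ := SubPoly.result.{u} r hr1 D (by exact_mod_cast hD)
  have hleast : ∀ n : ℕ, 2 ≤ n → IsLeast (P249D.GoodDims.{u} (ENNReal.ofReal r) D n)
      (Vale.Agent.P249.dimP.{u} r D n) := by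
    intro n hn
    refine ⟨(P249D.mem_goodDims_iff hr1.le).2 (h1 n hn).1, fun d hd => ?_⟩
    exact Nat.sInf_le ((P249D.mem_goodDims_iff hr1.le).1 hd)
  refine ⟨fun n => Vale.Agent.P249.dimP.{u} r D n, hleast, ⟨C, fun n hn => ?_⟩, h2, ?_, ?_⟩
  · rw [ENNReal.toReal_ofReal hr0]
    exact (h1 n hn).2
  · intro c hc
    have h5 := (isLittleO_iff.1 h3) (half_pos hc)
    filter_upwards [h5, eventually_ge_atTop 2] with n hn hn2
    intro Ω _ μ X hX
    refine ⟨_, ?_, (hleast n hn2).1 Ω μ X hX⟩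
    have hn0 : (0 : ℝ) < n := by exact_mod_cast (by omega : 0 < n)
    rw [Real.norm_of_nonneg (by positivity), Real.norm_of_nonneg hn0.le] at hn
    nlinarith
  · intro h2p
    rw [ENNReal.toReal_ofReal hr0]
    refine h4 ?_
    by_contra h
    have h6 : ENNReal.ofReal r ≤ 2 := by
      have : (2 : ℝ≥0∞) = ENNReal.ofReal 2 := by simp
      rw [this]
      exact ENNReal.ofReal_le_ofReal (not_lt.1 h)
    exact absurd h2p (not_lt.2 h6)

end Vale.Agent.Results.P249.BiLipschitz
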