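import Mathlib
import Vale.Agent.Lib.P249D.Bridge
import Vale.Agent.Results.P249.SubPoly

/-!
# P249: dimension reduction in `L_p`, statement without definitions
-/

namespace Vale.Agent.Results.P249.LittleO

open MeasureTheory Filter Topology Asymptotics
open scoped ENNReal NNReal

universe u

/-- The dimensions that suffice for `n` distinct points `x 1, ..., x n` of every `L_p(μ)`, in terms
of the images `y 1, ..., y n`, are those that suffice for all `n`-point sets. -/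
theorem admits_iff {q : ℝ≥0∞} [Fact (1 ≤ q)] {r : ℝ} (hr : 1 ≤ r) (hq : q = ENNReal.ofReal r)
    {D : ℝ} {n d : ℕ} :
    (∀ (Ω : Type u) [MeasurableSpace Ω] (μ : Measure Ω) (x : Fin n → Lp ℝ q μ),
      Function.Injective x → ∃ (y : Fin n → PiLp q fun _ : Fin d => ℝ) (s : ℝ), 0 < s ∧
        ∀ i j, s * dist (x i) (x j) ≤ dist (y i) (y j) ∧
          dist (y i) (y j) ≤ D * s * dist (x i) (x j)) ↔
      Vale.Agent.P249.Admits.{u} r D n d := by
  classical
  subst hq
  constructor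
  · intro h Ω _ μ X hX
    let e : Fin n ≃ X := (finCongr hX.symm).trans X.equivFin.symm
    obtain ⟨y, s, hs, hy⟩ := h Ω μ (fun i => (e i : Lp ℝ (ENNReal.ofReal r) μ))
      (Subtype.val_injective.comp e.injective)
    refine ⟨fun v => if hv : v ∈ X then WithLp.ofLp (y (e.symm ⟨v, hv⟩)) else 0, s, hs, ?_⟩
    intro u hu v hv
    simp only [dif_pos hu, dif_pos hv]
    have h1 := hy (e.symm ⟨u, hu⟩) (e.symm ⟨v, hv⟩)
    simp only [Equiv.apply_symm_apply] at h1
    rw [dist_eq_norm, dist_eq_norm] at h1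
    have h2 : ‖y (e.symm ⟨u, hu⟩) - y (e.symm ⟨v, hv⟩)‖ = Vale.Agent.P249.lpNorm r
        (WithLp.ofLp (y (e.symm ⟨u, hu⟩)) - WithLp.ofLp (y (e.symm ⟨v, hv⟩))) := by
      rw [← P249D.norm_toLp hr]
      rfl
    rw [h2] at h1
    exact h1
  · intro h Ω _ μ x hx
    obtain ⟨f, s, hs, hf⟩ := h Ω μ (Finset.univ.map ⟨x, hx⟩) (by simp)
    refine ⟨fun i => WithLp.toLp _ (f (x i)), s, hs, fun i j => ?_⟩
    have h1 := hf (x i) (by simp) (x j) (by simp)
    have h2 : dist (WithLp.toLp (ENNReal.ofReal r) (f (x i)) :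
        PiLp (ENNReal.ofReal r) fun _ : Fin d => ℝ) (WithLp.toLp (ENNReal.ofReal r) (f (x j))) =
        Vale.Agent.P249.lpNorm r (f (x i) - f (x j)) := by
      rw [← P249D.norm_toLp hr, dist_eq_norm]
      rfl
    rw [h2, dist_eq_norm]
    exact h1

/-- Let `1 < p < ∞` and `D > 1`.  For `n ≥ 2` let `dp n` be the least `d` such that, for all distinct
points `x 1, ..., x n` of every `L_p(μ)`, there are points `y 1, ..., y n` of `ℓ_p^d` and `s > 0` with
`s ‖x i - x j‖ ≤ ‖y i - y j‖ ≤ D s ‖x i - x j‖` for all `i, j`.  Then `dp n = o(n)`; moreover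
`dp n = n ^ o(1)`, that is, `log (dp n) / log n` tends to `0`, with the explicit bound
`dp n ≤ exp (C (log n) ^ max (1/p) (1/2))`; and `dp n ≥ c (log n / log log n) ^ (p / 2)` for all
large `n` if `p > 2`. -/
theorem result (p : ℝ≥0) [Fact (1 ≤ (p : ℝ≥0∞))] (hp : 1 < p) (D : ℝ) (hD : 1 < D) :
    ∃ dp : ℕ → ℕ,
      (∀ n : ℕ, 2 ≤ n → IsLeast {d : ℕ | ∀ (Ω : Type u) [MeasurableSpace Ω] (μ : Measure Ω)
          (x : Fin n → Lp ℝ p μ), Function.Injective x →
            ∃ (y : Fin n → PiLp p fun _ : Fin d => ℝ) (s : ℝ), 0 < s ∧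
              ∀ i j, s * dist (x i) (x j) ≤ dist (y i) (y j) ∧
                dist (y i) (y j) ≤ D * s * dist (x i) (x j)} (dp n)) ∧
      Tendsto (fun n : ℕ => (dp n : ℝ) / n) atTop (𝓝 0) ∧
      Tendsto (fun n : ℕ => Real.log (dp n) / Real.log n) atTop (𝓝 0) ∧
      (∃ C : ℝ, ∀ n : ℕ, 2 ≤ n →
        (dp n : ℝ) ≤ Real.exp (C * Real.log n ^ max (1 / (p : ℝ)) (1 / 2))) ∧
      (2 < p → ∃ c : ℝ, 0 < c ∧ ∀ᶠ n : ℕ in atTop,
        c * (Real.log n / Real.log (Real.log n)) ^ ((p : ℝ) / 2) ≤ dp n) := by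
  have hp1 : (1 : ℝ) < p := by exact_mod_cast hp
  have hpe : (p : ℝ≥0∞) = ENNReal.ofReal (p : ℝ) := (ENNReal.ofReal_coe_nnreal).symm
  obtain ⟨⟨C, hC, h1⟩, h2, h3, h4⟩ := SubPoly.result.{u} (p : ℝ) hp1 D hD
  have hr1 : max (1 / (p : ℝ)) (1 / 2) < 1 :=
    max_lt ((div_lt_one (by linarith)).2 hp1) (by norm_num)
  refine ⟨fun n => Vale.Agent.P249.dimP.{u} p D n, ?_, ?_, ?_, ⟨C, fun n hn => (h1 n hn).2⟩, ?_⟩
  · intro n hn
    refine ⟨(admits_iff hp1.le hpe).2 (h1 n hn).1, fun d hd => ?_⟩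
    exact Nat.sInf_le ((admits_iff hp1.le hpe).1 hd)
  · exact h3.tendsto_div_nhds_zero
  · have hlog : Tendsto (fun n : ℕ => Real.log n) atTop atTop :=
      Real.tendsto_log_atTop.comp tendsto_natCast_atTop_atTop
    have h5 : Tendsto (fun n : ℕ => C * Real.log n ^ (-(1 - max (1 / (p : ℝ)) (1 / 2)))) atTop
        (𝓝 0) := by
      have h6 := (tendsto_rpow_neg_atTop
        (y := 1 - max (1 / (p : ℝ)) (1 / 2)) (by linarith)).comp hlog
      simpa using h6.const_mul C
    refine tendsto_of_tendsto_of_tendsto_of_le_of_le' tendsto_const_nhds h5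
      (Eventually.of_forall fun n => by positivity) ?_
    filter_upwards [eventually_ge_atTop 2] with n hn
    have hl0 : 0 < Real.log n := Real.log_pos (by exact_mod_cast (by omega : 1 < n))
    rw [div_le_iff₀ hl0]
    have h7 : Real.log n ^ (-(1 - max (1 / (p : ℝ)) (1 / 2))) * Real.log n
        = Real.log n ^ max (1 / (p : ℝ)) (1 / 2) := by
      rw [← Real.rpow_add_one hl0.ne']
      congr 1; ring
    rw [mul_assoc, h7]
    rcases Nat.eq_zero_or_pos (Vale.Agent.P249.dimP.{u} (p : ℝ) D n) with h0 | h0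
    · rw [h0, Nat.cast_zero, Real.log_zero]
      positivity
    · have h8 := Real.log_le_log (by exact_mod_cast h0) (h1 n hn).2
      rwa [Real.log_exp] at h8
  · intro h2p
    exact h4 (by exact_mod_cast h2p)

end Vale.Agent.Results.P249.LittleO
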