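import Vale.Agent.Lib.P249.Defs
import Vale.Agent.Lib.P249.Final
import Vale.Agent.Lib.P249.LowerFinal
import Vale.Agent.Lib.P249B.Final

namespace Vale.Agent.Results.P249.PowerSaving

open Vale.Agent.P249 Filter Topology

universe u

/-- Dimension reduction in `L_p`, every `p ≥ 1`, every distortion `D > 1`. `dimP p D n` is the
least dimension `d` such that every `n`-point subset of every `L_p(μ)` admits a map into `ℓ_p^d`
of distortion at most `D` (attained: first conjunct). Bounds: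
* `d_p(n, D) ≤ C n ^ (A / D^(1/5))` with `A = 134 (6 p + 1)`; so every power `n ^ δ` suffices at a
  distortion `O_p(δ^(-5))` which does not depend on `n`;
* hence `d_p(n, D) = o(n)` for every `D > A ^ 5`;
* `d_p(n, D) ≤ C n log n` for every `p > 1` and `D > 1`;
* `d_p(n, D) ≥ c (log n / log log n) ^ (p / 2)` for `p > 2` and all large `n`. -/
theorem result (p D : ℝ) (hp : 1 ≤ p) (hD : 1 < D) :
    ∃ c C : ℝ, 0 < c ∧ 0 < C ∧ ∃ n₀ : ℕ,
      (∀ n : ℕ, 2 ≤ n → Admits.{u} p D n (dimP.{u} p D n) ∧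
        (dimP.{u} p D n : ℝ) ≤ C * (n : ℝ) ^ (134 * (6 * p + 1) / D ^ ((1 : ℝ) / 5))) ∧
      ((134 * (6 * p + 1)) ^ 5 < D →
        Tendsto (fun n : ℕ => (dimP.{u} p D n : ℝ) / n) atTop (𝓝 0)) ∧
      (1 < p → ∀ n : ℕ, 2 ≤ n → (dimP.{u} p D n : ℝ) ≤ C * n * Real.log n) ∧
      (2 < p → ∀ n : ℕ, n₀ ≤ n →
        c * (Real.log n / Real.log (Real.log n)) ^ (p / 2) ≤ (dimP.{u} p D n : ℝ)) := by
  obtain ⟨C1, hC1, h1⟩ := Vale.Agent.P249B.power_bound.{u} hp hD
  have hnl : ∃ C2 : ℝ, 0 < C2 ∧ (1 < p → ∀ n : ℕ, 2 ≤ n →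
      (dimP.{u} p D n : ℝ) ≤ C2 * n * Real.log n) := by
    by_cases h : 1 < p
    · obtain ⟨C, hC, h'⟩ := admits.{u} p h D hD
      refine ⟨C, hC, fun _ n hn => ?_⟩
      obtain ⟨N, hN, hadm⟩ := h' n hn
      have h2 : dimP.{u} p D n ≤ N := Nat.sInf_le hadm
      exact le_trans (by exact_mod_cast h2) hN
    · exact ⟨1, one_pos, fun h' => absurd h' h⟩
  obtain ⟨C2, hC2, h2⟩ := hnl
  have hlow : ∃ c : ℝ, 0 < c ∧ ∃ n₀ : ℕ, (2 < p → ∀ n : ℕ, n₀ ≤ n →
      c * (Real.log n / Real.log (Real.log n)) ^ (p / 2) ≤ (dimP.{u} p D n : ℝ)) := by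
    by_cases h : 2 < p
    · obtain ⟨c, hc, n₀, h'⟩ := lower_bound.{u} (p := p) (D := D) h.le hD.le
      exact ⟨c, hc, max n₀ 1, fun _ n hn =>
        h' n (le_trans (le_max_left _ _) hn) _ (h1 n (le_trans (le_max_right _ _) hn)).1⟩
    · exact ⟨1, one_pos, 0, fun h' => absurd h' h⟩
  obtain ⟨c, hc, n₀, h3⟩ := hlow
  refine ⟨c, max C1 C2, hc, lt_max_of_lt_left hC1, n₀, ?_, ?_, ?_, h3⟩
  · intro n hn
    obtain ⟨h4, h5⟩ := h1 n (by omega)
    refine ⟨h4, h5.trans ?_⟩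
    exact mul_le_mul_of_nonneg_right (le_max_left _ _) (by positivity)
  · intro hbig
    have hA0 : 0 < 134 * (6 * p + 1) := by linarith
    have hx : 134 * (6 * p + 1) < D ^ ((1:ℝ) / 5) := by
      have h4 := Real.rpow_lt_rpow (by positivity) hbig (z := (1:ℝ) / 5) (by norm_num)
      rwa [← Real.rpow_natCast, ← Real.rpow_mul hA0.le, Nat.cast_ofNat,
        mul_one_div_cancel (by norm_num), Real.rpow_one] at h4
    set a : ℝ := 134 * (6 * p + 1) / D ^ ((1:ℝ) / 5) with ha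
    have ha1 : a < 1 := by
      rw [ha, div_lt_one (by linarith)]; exact hx
    have h4 : Tendsto (fun n : ℕ => C1 * (n:ℝ) ^ (-(1 - a))) atTop (𝓝 0) := by
      have h5 := (tendsto_rpow_neg_atTop (y := 1 - a) (by linarith)).comp
        tendsto_natCast_atTop_atTop
      simpa using h5.const_mul C1
    refine tendsto_of_tendsto_of_tendsto_of_le_of_le' tendsto_const_nhds h4
      (Eventually.of_forall fun n => by positivity) ?_
    filter_upwards [eventually_ge_atTop 1] with n hn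
    have hn0 : (0:ℝ) < n := by exact_mod_cast hn
    rw [div_le_iff₀ hn0]
    refine (h1 n hn).2.trans (le_of_eq ?_)
    have h6 : (n:ℝ) ^ (-(1 - a)) * n = (n:ℝ) ^ a := by
      rw [← Real.rpow_add_one hn0.ne']
      congr 1; ring
    rw [mul_assoc, h6]
  · intro hp1 n hn
    refine (h2 hp1 n hn).trans ?_
    have hlog : 0 ≤ Real.log n := Real.log_nonneg (by exact_mod_cast (by omega : 1 ≤ n))
    apply mul_le_mul_of_nonneg_right _ hlog
    exact mul_le_mul_of_nonneg_right (le_max_right _ _) (by positivity)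

end Vale.Agent.Results.P249.PowerSaving
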